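import Vale.Agent.P080C1.Props

/-!
The bound on `qval` at the gradient of a flat viscosity solution: the bound for the approximants
passes to the limit, as `qval` is convex.
-/

noncomputable section

open MeasureTheory Filter Topology Metric Set
open scoped RealInnerProductSpace ContDiff NNReal

namespace Vale.Agent.P080C1.QExact

/-- The gradient of `qval`. -/
def dqval (a : E3) : E3 := (7 / 4 : ℝ) • a + (a 2 / 4 - 1) • ee 2

/-- `qval` lies above its tangent planes. -/
theorem qval_tangent_le (a p : E3) : qval a + ⟪dqval a, p - a⟫ ≤ qval p := by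
  have h1 : ⟪a, p - a⟫ = ⟪a, p⟫ - ‖a‖ ^ 2 := by
    rw [inner_sub_right, real_inner_self_eq_norm_sq]
  have h2 : ⟪ee 2, p - a⟫ = p 2 - a 2 := by
    simp [ee, EuclideanSpace.inner_single_left]
  have h3 : ‖p - a‖ ^ 2 = ‖p‖ ^ 2 - 2 * ⟪a, p⟫ + ‖a‖ ^ 2 := by
    rw [norm_sub_sq_real, real_inner_comm]
  have h4 := sq_nonneg (p 2 - a 2)
  simp only [dqval, inner_add_left, real_inner_smul_left, h1, h2, qval]
  nlinarith [sq_nonneg ‖p - a‖]

theorem inner_ee_two (x : E3) : ⟪ee 2, x⟫ = x 2 := by simp [ee, EuclideanSpace.inner_single_left]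

theorem mem_cyl₀ {R ρ : ℝ} {x : E3} :
    x ∈ cyl₀ R ρ ↔ |x 2| ≤ R ∧ ‖x‖ ^ 2 - x 2 ^ 2 ≤ ρ ^ 2 := by
  have h : ‖ee 2‖ = 1 := by simp [ee]
  simp [cyl₀, cyl, h, inner_ee_two]

theorem cyl₀_mono {R R' ρ ρ' : ℝ} (hR : R ≤ R') (hρ0 : 0 ≤ ρ) (hρ : ρ ≤ ρ') :
    cyl₀ R ρ ⊆ cyl₀ R' ρ' := fun x hx => by
  rw [mem_cyl₀] at hx ⊢
  exact ⟨hx.1.trans hR, hx.2.trans (pow_le_pow_left₀ hρ0 hρ 2)⟩

theorem cyl₀_subset_interior {R R' ρ ρ' : ℝ} (hR : R < R') (hρ0 : 0 ≤ ρ) (hρ : ρ < ρ') :
    cyl₀ R ρ ⊆ interior (cyl₀ R' ρ') := by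
  refine fun x hx => interior_maximal
    (t := {x : E3 | |x 2| < R'} ∩ {x : E3 | ‖x‖ ^ 2 - x 2 ^ 2 < ρ' ^ 2})
    (fun x hx => mem_cyl₀.2 ⟨hx.1.le, hx.2.le⟩)
    ((isOpen_lt (by fun_prop) continuous_const).inter (isOpen_lt (by fun_prop) continuous_const)) ?_
  rw [mem_cyl₀] at hx
  exact ⟨hx.1.trans_lt hR, hx.2.trans_lt (pow_lt_pow_left₀ hρ hρ0 two_ne_zero)⟩

theorem isCompact_cyl₀ (R ρ : ℝ) : IsCompact (cyl₀ R ρ) := by
  refine Metric.isCompact_of_isClosed_isBounded ?_ ?_
  · have : cyl₀ R ρ = {x : E3 | |x 2| ≤ R} ∩ {x : E3 | ‖x‖ ^ 2 - x 2 ^ 2 ≤ ρ ^ 2} := by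
      ext x; exact mem_cyl₀
    rw [this]
    exact (isClosed_le (by fun_prop) continuous_const).inter
      (isClosed_le (by fun_prop) continuous_const)
  · refine (isBounded_closedBall (x := (0 : E3)) (r := |R| + |ρ|)).subset fun x hx => ?_
    rw [mem_cyl₀] at hx
    rw [mem_closedBall_zero_iff]
    refine le_of_sq_le_sq ?_ (by positivity)
    nlinarith [sq_abs (x 2), sq_abs R, sq_abs ρ, abs_nonneg R, abs_nonneg ρ, abs_nonneg (x 2),
      le_abs_self R]

theorem convex_cyl₀ (R ρ : ℝ) : Convex ℝ (cyl₀ R ρ) := by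
  intro x hx y hy a b ha hb hab
  rw [mem_cyl₀] at hx hy ⊢
  have h3 : ∀ z : E3, ‖z‖ ^ 2 - z 2 ^ 2 = z 0 ^ 2 + z 1 ^ 2 := fun z => by
    simp [EuclideanSpace.norm_sq_eq, Fin.sum_univ_three]
  rw [h3] at hx hy ⊢
  simp only [PiLp.add_apply, PiLp.smul_apply, smul_eq_mul]
  obtain rfl : b = 1 - a := by linarith
  constructor
  · rw [abs_le] at hx hy ⊢
    constructor <;> nlinarith
  · nlinarith [mul_nonneg (mul_nonneg ha hb) (sq_nonneg (x 0 - y 0)),
      mul_nonneg (mul_nonneg ha hb) (sq_nonneg (x 1 - y 1))]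

/-- One approximant: the average increase along `b` exceeds `K` only as far as the exceptional
set allows. -/
theorem average_increase_le {w : E3 → ℝ} {U S T : Set E3} {y b : E3} {r t K B : ℝ}
    (hU : IsOpen U) (hw : ContDiffOn ℝ 1 w U) (hB : ∀ x ∈ U, ‖fderiv ℝ w x‖ ≤ B) (hB0 : 0 ≤ B)
    (ht : 0 < t) (hball : closedBall y (r + 2 * t * ‖b‖) ⊆ S) (hSU : S ⊆ U)
    (hS : Bornology.IsBounded S) (hTS : T ⊆ S) (hK : ∀ x ∈ S, x ∉ T → fderiv ℝ w x b ≤ K) :
    (∫ x in closedBall y r, w (x + t • b)) - ∫ x in closedBall y r, w x ≤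
      t * (K * volume.real (closedBall y r) + (B * ‖b‖ + |K|) * volume.real T) := by
  set D := closedBall y r
  set M := B * ‖b‖ + |K|
  have hM : 0 ≤ M := by positivity
  have hmem : ∀ s : ℝ, |s| ≤ 2 * t → ∀ x ∈ D, x + s • b ∈ S := fun s hs x hx => hball <| by
    rw [mem_closedBall_iff_norm, show x + s • b - y = (x - y) + s • b by abel]
    refine (norm_add_le _ _).trans (add_le_add (mem_closedBall_iff_norm.1 hx) ?_)
    rw [norm_smul, Real.norm_eq_abs]
    exact mul_le_mul_of_nonneg_right hs (norm_nonneg _)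
  have hd : ∀ x ∈ U, DifferentiableAt ℝ w x := fun x hx =>
    (hw.contDiffAt (hU.mem_nhds hx)).differentiableAt one_ne_zero
  have hfd : ContinuousOn (fun x => fderiv ℝ w x b) U :=
    (hw.continuousOn_fderiv_of_isOpen hU le_rfl).clm_apply continuousOn_const
  have hcw : ∀ s : ℝ, |s| ≤ 2 * t → ContinuousOn (fun x => w (x + s • b)) D := fun s hs =>
    hw.continuousOn.comp (by fun_prop) fun x hx => hSU (hmem s hs x hx)
  have hcd : ∀ s : ℝ, |s| ≤ 2 * t → ContinuousOn (fun x => fderiv ℝ w (x + s • b) b) D :=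
    fun s hs => hfd.comp (by fun_prop) fun x hx => hSU (hmem s hs x hx)
  have hfin : volume D ≠ ⊤ := (isCompact_closedBall y r).measure_ne_top
  have hTfin : volume T ≠ ⊤ := ne_top_of_le_ne_top hS.measure_lt_top.ne (measure_mono hTS)
  have hder : ∀ s ∈ Icc (0 : ℝ) t, HasDerivAt (fun s => ∫ x in D, w (x + s • b))
      (∫ x in D, fderiv ℝ w (x + s • b) b) s := by
    intro s hs
    have hnear : ∀ s' ∈ ball s t, |s'| ≤ 2 * t := fun s' hs' => by
      rw [mem_ball, Real.dist_eq, abs_lt] at hs'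
      exact abs_le.2 ⟨by linarith [hs.1], by linarith [hs.2]⟩
    have hs2 : |s| ≤ 2 * t := hnear s (mem_ball_self ht)
    refine (hasDerivAt_integral_of_dominated_loc_of_deriv_le (μ := volume.restrict D)
      (F := fun s x => w (x + s • b)) (F' := fun s x => fderiv ℝ w (x + s • b) b)
      (bound := fun _ => B * ‖b‖) (s := ball s t) (ball_mem_nhds _ ht) ?_ ?_ ?_ ?_ ?_ ?_).2
    · exact Filter.eventually_of_mem (ball_mem_nhds _ ht) fun s' hs' =>
        (hcw s' (hnear s' hs')).aestronglyMeasurable measurableSet_closedBall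
    · exact (hcw s hs2).integrableOn_compact (isCompact_closedBall y r)
    · exact (hcd s hs2).aestronglyMeasurable measurableSet_closedBall
    · refine ae_restrict_of_forall_mem measurableSet_closedBall fun x hx s' hs' => ?_
      exact (ContinuousLinearMap.le_opNorm _ _).trans (mul_le_mul_of_nonneg_right
        (hB _ (hSU (hmem s' (hnear s' hs') x hx))) (norm_nonneg _))
    · exact integrableOn_const hfin
    · refine ae_restrict_of_forall_mem measurableSet_closedBall fun x hx s' hs' => ?_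
      have hl : HasDerivAt (fun u : ℝ => x + u • b) b s' := by
        simpa using ((hasDerivAt_id s').smul_const b).const_add x
      exact (hd _ (hSU (hmem s' (hnear s' hs') x hx))).hasFDerivAt.comp_hasDerivAt s' hl
  have hbound : ∀ s ∈ Icc (0 : ℝ) t,
      (∫ x in D, fderiv ℝ w (x + s • b) b) ≤ K * volume.real D + M * volume.real T := by
    intro s hs
    have hs2 : |s| ≤ 2 * t := by rw [abs_of_nonneg hs.1]; linarith [hs.2]
    set T' := (fun x => x + s • b) ⁻¹' toMeasurable volume T
    have hT' : MeasurableSet T' :=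
      (measurableSet_toMeasurable _ _).preimage (measurable_add_const _)
    have hvT : volume T' = volume T := by
      rw [measure_preimage_add_right, measure_toMeasurable]
    have hiT : IntegrableOn (fun x => T'.indicator (fun _ => M) x) D :=
      (integrableOn_const hfin).indicator hT'
    have hint : (∫ x in D, fderiv ℝ w (x + s • b) b) ≤
        ∫ x in D, (K + T'.indicator (fun _ => M) x) := by
      refine setIntegral_mono_on ((hcd s hs2).integrableOn_compact (isCompact_closedBall y r))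
        ((integrableOn_const hfin).add hiT) measurableSet_closedBall fun x hx => ?_
      have hxS := hmem s hs2 x hx
      by_cases hx' : x ∈ T'
      · rw [indicator_of_mem hx']
        have h1 := (ContinuousLinearMap.le_opNorm (fderiv ℝ w (x + s • b)) b).trans
          (mul_le_mul_of_nonneg_right (hB _ (hSU hxS)) (norm_nonneg _))
        rw [Real.norm_eq_abs, abs_le] at h1
        linarith [neg_abs_le K, h1.2]
      · rw [indicator_of_notMem hx', add_zero]
        exact hK _ hxS fun h => hx' (subset_toMeasurable volume T h)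
    refine hint.trans ?_
    rw [integral_add (integrableOn_const (C := K) hfin) hiT, setIntegral_const, setIntegral_indicator hT',
      setIntegral_const, smul_eq_mul, smul_eq_mul, mul_comm (volume.real D), mul_comm _ M]
    have : volume.real (D ∩ T') ≤ volume.real T := by
      rw [Measure.real, Measure.real, ← hvT]
      exact ENNReal.toReal_mono (hvT ▸ hTfin) (measure_mono inter_subset_right)
    linarith [mul_le_mul_of_nonneg_left this hM]
  have hmvt := Convex.image_sub_le_mul_sub_of_deriv_le (convex_Icc (0 : ℝ) t)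
    (f := fun s => ∫ x in D, w (x + s • b))
    (fun s hs => (hder s hs).continuousAt.continuousWithinAt)
    (fun s hs => (hder s (interior_subset hs)).differentiableAt.differentiableWithinAt)
    (C := K * volume.real D + M * volume.real T)
    (fun s hs => by
      rw [(hder s (interior_subset hs)).deriv]
      exact hbound s (interior_subset hs))
    0 (left_mem_Icc.2 ht.le) t (right_mem_Icc.2 ht.le) ht.le
  simp only [zero_smul, add_zero, sub_zero] at hmvt
  linarith

/-- The bound on directional derivatives passes to a uniform limit. -/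
theorem increase_le_of_approx {v : ℕ → E3 → ℝ} {u : E3 → ℝ} {U S : Set E3} {T : ℕ → Set E3}
    {y b : E3} {d t K B : ℝ} (hU : IsOpen U) (hv : ∀ n, ContDiffOn ℝ 1 (v n) U)
    (hconv : TendstoUniformlyOn v u atTop U) (hB : ∀ n, ∀ x ∈ U, ‖fderiv ℝ (v n) x‖ ≤ B)
    (hB0 : 0 ≤ B) (hSU : S ⊆ U) (hS : Bornology.IsBounded S) (hTS : ∀ n, T n ⊆ S)
    (hT : Tendsto (fun n => volume.real (T n)) atTop (𝓝 0))
    (hK : ∀ n, ∀ x ∈ S, x ∉ T n → fderiv ℝ (v n) x b ≤ K)
    (hd : 0 < d) (hball : closedBall y d ⊆ S) (ht : 0 < t) (htb : 4 * t * ‖b‖ ≤ d) :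
    u (y + t • b) - u y ≤ t * K := by
  have hu : ContinuousOn u U :=
    hconv.continuousOn (Eventually.of_forall fun n => (hv n).continuousOn).frequently
  by_contra hlt
  rw [not_le] at hlt
  obtain ⟨c, hc, hc'⟩ := exists_between hlt
  have hyU : ∀ x, x ∈ closedBall y (d / 2) → x + t • b ∈ U ∧ x ∈ U := fun x hx => by
    refine ⟨hSU (hball ?_), hSU (hball (closedBall_subset_closedBall (by linarith) hx))⟩
    rw [mem_closedBall_iff_norm, show x + t • b - y = (x - y) + t • b by abel]
    refine (norm_add_le _ _).trans ?_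
    rw [norm_smul, Real.norm_of_nonneg ht.le]
    linarith [mem_closedBall_iff_norm.1 hx, mul_nonneg ht.le (norm_nonneg b)]
  have hg : ContinuousOn (fun x => u (x + t • b) - u x) (closedBall y (d / 2)) :=
    (hu.comp (by fun_prop) fun x hx => (hyU x hx).1).sub (hu.mono fun x hx => (hyU x hx).2)
  obtain ⟨r₀, hr₀, hr₀'⟩ := Metric.mem_nhds_iff.1
    (((hg.continuousAt (closedBall_mem_nhds y (by linarith))).eventually (lt_mem_nhds hc')))
  obtain ⟨r, hr, hrr₀, hrd⟩ : ∃ r, 0 < r ∧ r < r₀ ∧ r ≤ d / 2 :=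
    ⟨min (r₀ / 2) (d / 2), lt_min (by linarith) (by linarith),
      (min_le_left _ _).trans_lt (by linarith), min_le_right _ _⟩
  set D := closedBall y r
  have hDball : D ⊆ closedBall y (d / 2) := closedBall_subset_closedBall hrd
  have hfin : volume D ≠ ⊤ := (isCompact_closedBall y r).measure_ne_top
  have hlow : c * volume.real D ≤ ∫ x in D, (u (x + t • b) - u x) :=
    setIntegral_ge_of_const_le_real measurableSet_closedBall hfin
      (fun x hx => (hr₀' (closedBall_subset_ball hrr₀ hx)).le)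
      ((hg.mono hDball).integrableOn_compact (isCompact_closedBall y r))
  -- bound for the approximants, and passage to the limit
  have happ : ∀ η > 0, (∫ x in D, (u (x + t • b) - u x)) ≤
      t * K * volume.real D + η := by
    intro η hη
    have hvol : 0 ≤ volume.real D := measureReal_nonneg
    obtain ⟨θ, hθ, hθη⟩ : ∃ θ, 0 < θ ∧ 2 * θ * volume.real D ≤ η / 2 :=
      ⟨η / (4 * (volume.real D + 1)), by positivity, by
        rw [mul_div_assoc', div_mul_eq_mul_div, div_le_iff₀ (by positivity)]; nlinarith⟩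
    have h1 := Metric.tendstoUniformlyOn_iff.1 hconv θ hθ
    have h2 : Tendsto (fun n => t * ((B * ‖b‖ + |K|) * volume.real (T n))) atTop (𝓝 0) := by
      simpa using (hT.const_mul (B * ‖b‖ + |K|)).const_mul t
    obtain ⟨n, hn1, hn2⟩ := (h1.and (h2.eventually (gt_mem_nhds (half_pos hη)))).exists
    have h3 := average_increase_le (r := r) hU (hv n) (hB n) hB0 ht
      ((closedBall_subset_closedBall (by nlinarith [norm_nonneg b])).trans hball) hSU hS
      (hTS n) (hK n)
    have hiv : IntegrableOn (fun x => v n (x + t • b)) D :=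
      ((hv n).continuousOn.comp (by fun_prop) fun x hx => (hyU x (hDball hx)).1).integrableOn_compact
        (isCompact_closedBall y r)
    have hiv' : IntegrableOn (fun x => v n x) D :=
      ((hv n).continuousOn.mono fun x hx => (hyU x (hDball hx)).2).integrableOn_compact
        (isCompact_closedBall y r)
    rw [← integral_sub hiv hiv'] at h3
    have h4 : (∫ x in D, (u (x + t • b) - u x)) ≤
        ∫ x in D, ((v n (x + t • b) - v n x) + 2 * θ) := by
      refine setIntegral_mono_on ((hg.mono hDball).integrableOn_compact (isCompact_closedBall y r))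
        ((hiv.sub hiv').add (integrableOn_const hfin)) measurableSet_closedBall fun x hx => ?_
      have a1 := hn1 _ (hyU x (hDball hx)).1
      have a2 := hn1 _ (hyU x (hDball hx)).2
      rw [Real.dist_eq, abs_lt] at a1 a2
      linarith [a1.2, a2.1]
    have hdi : IntegrableOn (fun x => v n (x + t • b) - v n x) D := hiv.sub hiv'
    rw [integral_add hdi (integrableOn_const (C := 2 * θ) hfin), setIntegral_const, smul_eq_mul,
      mul_comm (volume.real D)] at h4
    simp only [D] at *
    linarith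
  have hvpos : 0 < volume.real D := by
    rw [Measure.real]
    exact ENNReal.toReal_pos (measure_closedBall_pos volume y hr).ne' hfin
  have := le_of_forall_pos_le_add happ
  nlinarith

/-- Slopes along `b` bound the derivative in the direction `b`. -/
theorem fderiv_apply_le {u : E3 → ℝ} {y b : E3} {K : ℝ} (hd : DifferentiableAt ℝ u y)
    (h : ∀ᶠ t : ℝ in 𝓝[>] 0, u (y + t • b) - u y ≤ t * K) : fderiv ℝ u y b ≤ K := by
  have hline : HasDerivAt (fun t : ℝ => u (y + t • b)) (fderiv ℝ u y b) 0 := by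
    have hl : HasDerivAt (fun t : ℝ => y + t • b) b 0 := by
      simpa using ((hasDerivAt_id (0 : ℝ)).smul_const b).const_add y
    exact hd.hasFDerivAt.comp_hasDerivAt_of_eq (0 : ℝ) hl (by simp)
  have hlim := hline.tendsto_slope_zero.mono_left
    (nhdsWithin_mono (0 : ℝ) (s := Ioi (0 : ℝ)) fun t ht => (mem_Ioi.1 ht).ne')
  refine le_of_tendsto hlim ?_
  filter_upwards [h, self_mem_nhdsWithin] with t ht (htp : 0 < t)
  simp only [zero_add, zero_smul, add_zero, smul_eq_mul]
  rw [inv_mul_le_iff₀ htp]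
  exact ht

/-- The bound for flat viscosity solutions follows from the bound for their approximants. -/
theorem qExactProp (hA : ApproxProp) (hQ : QLemmaProp) : QExactProp := by
  obtain ⟨L₀, hL₀, hQ⟩ := hQ
  refine ⟨L₀, hL₀, fun L hL => ?_⟩
  obtain ⟨C, ε₀, hC, hε₀, hQ⟩ := hQ L hL
  refine ⟨C, ε₀, hC, hε₀, fun O u ε hO hu hε hεle hcyl hflat => ?_⟩
  set ℓ := L * √ε with hℓdef
  have hℓ : 0 < ℓ := mul_pos (hL₀.trans_le hL) (Real.sqrt_pos.2 hε)
  obtain ⟨δ, hδ, hδO⟩ := (isCompact_cyl₀ 1 ℓ).exists_cthickening_subset_open hO hcyl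
  set U := thickening δ (cyl₀ 1 ℓ)
  have hUo : IsOpen U := isOpen_thickening
  have hUc : Convex ℝ U := (convex_cyl₀ 1 ℓ).thickening δ
  obtain ⟨v, κ, hv⟩ := hA O U u hO hu hUo (isCompact_cyl₀ 1 ℓ).isBounded.thickening hUc
    ((closure_thickening_subset_cthickening _ _).trans hδO)
  have hCU : cyl₀ 1 ℓ ⊆ U := self_subset_thickening hδ _
  obtain ⟨B, hB⟩ := hv.grad_bound
  have hB0 : 0 ≤ max B 0 := le_max_right _ _
  have hsm : ∀ n, ContDiffOn ℝ 1 (v n) U := fun n =>
    (hv.smooth n).of_le (WithTop.coe_le_coe.2 le_top)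
  have hB' : ∀ n, ∀ x ∈ U, ‖fderiv ℝ (v n) x‖ ≤ max B 0 := fun n x hx => by
    have : gnorm (v n) x = ‖fderiv ℝ (v n) x‖ := by
      rw [gnorm, ← (InnerProductSpace.toDual ℝ E3).symm.norm_map, EuclideanSpace.norm_eq]
      congr 1
      refine Finset.sum_congr rfl fun i _ => ?_
      rw [Real.norm_eq_abs, sq_abs, pd, ← gradient, ← inner_gradient_left, ee,
        EuclideanSpace.inner_single_right]
      simp
    exact this ▸ (hB n x hx).trans (le_max_left _ _)
  have hlip : LipschitzOnWith (Real.toNNReal (max B 0)) u U := by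
    refine LipschitzOnWith.of_dist_le_mul fun a ha b hb => ?_
    refine le_of_tendsto ((hv.conv.tendsto_at ha).dist (hv.conv.tendsto_at hb))
      (Eventually.of_forall fun n => ?_)
    refine (Convex.lipschitzOnWith_of_nnnorm_fderiv_le (C := Real.toNNReal (max B 0))
      (fun x hx => ((hsm n).contDiffAt (hUo.mem_nhds hx)).differentiableAt one_ne_zero)
      (fun x hx => ?_) hUc).dist_le_mul a ha b hb
    rw [← NNReal.coe_le_coe, coe_nnnorm, Real.coe_toNNReal _ hB0]
    exact hB' n x hx
  have hsub : cyl₀ (5 / 8) (5 / 8 * ℓ) ⊆ U :=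
    (cyl₀_mono (by norm_num) (by positivity) (by linarith)).trans hCU
  rw [ae_restrict_iff' (isCompact_cyl₀ _ _).measurableSet]
  filter_upwards [hlip.ae_differentiableWithinAt_of_mem (μ := volume)] with y hy hyC
  have hd : DifferentiableAt ℝ u y := (hy (hsub hyC)).differentiableAt (hUo.mem_nhds (hsub hyC))
  refine ⟨hd, ?_⟩
  obtain ⟨d, hd0, hdS⟩ := nhds_basis_closedBall.mem_iff.1 (mem_interior_iff_mem_nhds.1
    (cyl₀_subset_interior (R' := 3 / 4) (ρ' := 3 / 4 * ℓ) (by norm_num) (by positivity)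
      (by linarith) hyC))
  set a := gradient u y
  set b := dqval a
  set K := C * ε - qval a + ⟪b, a⟫
  have hK : ∀ n, ∀ x ∈ cyl₀ (3 / 4) (3 / 4 * ℓ),
      x ∉ {z | z ∈ cyl₀ (3 / 4) (3 / 4 * ℓ) ∧ C * ε < qfun (v n) z} →
      fderiv ℝ (v n) x b ≤ K := fun n x hx hn => by
    have h1 : qval (gradient (v n) x) ≤ C * ε := not_lt.1 fun h => hn ⟨hx, h⟩
    have h2 := qval_tangent_le a (gradient (v n) x)
    rw [inner_sub_right] at h2
    rw [← inner_gradient_left, real_inner_comm]
    simp only [K, b] at *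
    linarith
  have hineq : fderiv ℝ u y b ≤ K := by
    refine fderiv_apply_le hd ?_
    have hnear : ∀ᶠ t : ℝ in 𝓝[>] 0, 4 * t * ‖b‖ < d :=
      nhdsWithin_le_nhds ((Continuous.tendsto' (by fun_prop) (0 : ℝ) 0 (by simp)).eventually
        (gt_mem_nhds hd0))
    filter_upwards [hnear, self_mem_nhdsWithin] with t ht (htp : 0 < t)
    exact increase_le_of_approx hUo hsm hv.conv hB' hB0
      ((cyl₀_mono (by norm_num) (by positivity) (by linarith)).trans hCU)
      (isCompact_cyl₀ _ _).isBounded (fun n z hz => hz.1)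
      (hQ U u v κ ε hv hε hεle hCU hflat) hK hd0 hdS htp ht.le
  rw [← inner_gradient_left, real_inner_comm] at hineq
  simp only [qfun, K, a] at *
  linarith

end Vale.Agent.P080C1.QExact
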